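import Claimed.Agent.R255.Coh.Strip
import Claimed.Agent.R255.Pk.Bridge

/-!
# R255 / Coh / Main : BR LEMMA 11.5 (PACKET COHERENCE ON A STRIP OR A CELL), FINAL FORMS        (architect helper207)   -- KEEP

Earlier atoms: time `c'`, velocity scale `ρ' ≤ ρ`, multiplicity `m'`;  endpoint tests: time `c`, scale `ρ`, multiplicity `m`.   `δ = ρ'/ρ` (`= ε^h` in the paper).
The atoms are distributed in velocity BINS `β k` :
* `d = 1` (`coh_one`)  : `|⟨V_k, n⟩ - yb (β k)| ≤ ρ'`;  tests with positions in a strip `λρ|⟨X_i - x₀, n⟩| ≤ C₁`:     `∑_i m_i(∑ a_k g_k) ≤ C m m' (#bins) δ ∑ |a_k|²`.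
* `d = 2` (`coh_two`)  : `‖V_k - Vb (β k)‖ ≤ ρ'`;   ONE test:        `m_0(∑ a_k g_k) ≤ C m' (#bins) δ² ∑ |a_k|²`.
Compared with (11.finite-coherence): NO factor `R² = ε^{-2θ}`, no hypothesis on the positions of the atoms, no hypothesis `|V_i - V_P| ≤ Cρ`.
The first inequality of (11.finite-coherence) (aggregate bound) is `pk_site_synth` + `pk_site_bessel`.
PROOFS.  `f = ∑_β f_β`;  `|∑_β x_β|² ≤ (#bins) ∑_β |x_β|²` (`sq_sum_le_card_mul_sum_sq` or Cauchy-Schwarz);  `f_β` vanishes off `cohStrip n (yb β) ((R'+1) ρ')` resp. off `closedBall (Vb β) ((R'+1) ρ')` (`pk_pkt_supp`);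
`d = 1`: `coh_strip` + `pk_bessel_synth2` (scale `ρ'`, time `c'`, subfamily: `PkMult2.mono`);   `d = 2`: `pk_pair_le` with `g = 1_ball · pkt₀`, `∫_ball |pkt₀|² ≤ (b 0)² ρ⁻² |ball|`, + `pk_bessel_synth2`.
LEAVES: COH-E (`coh_one`), COH-F (`coh_two`), COH-G (`coh_site_one`, `coh_site_two` : dictionary of `Pk/Bridge.lean`).
-/

set_option autoImplicit false

namespace Claimed.Agent.R255

open MeasureTheory Metric Set Osc Pkt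
open scoped ContDiff InnerProductSpace ComplexConjugate
open Classical

/-- distribution of a finite sum in bins + Cauchy-Schwarz over the bins. -/
theorem coh_bin {κ Bn : Type} (sT : Finset κ) (β : κ → Bn) (g : κ → E2 → ℂ) (hg : ∀ k ∈ sT, MemLp (g k) 2 volume)
    (p : E2 → ℂ) (hp : MemLp p 2 volume) :
    ‖∫ v, (∑ k ∈ sT, g k v) * p v‖ ^ 2 ≤
      (sT.image β).card * ∑ β₀ ∈ sT.image β, ‖∫ v, (∑ k ∈ sT with β k = β₀, g k v) * p v‖ ^ 2 := by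
  have h1 : ∀ v, (∑ k ∈ sT, g k v) * p v = ∑ β₀ ∈ sT.image β, (∑ k ∈ sT with β k = β₀, g k v) * p v := by
    intro v
    rw [← Finset.sum_mul, Finset.sum_fiberwise_of_maps_to (fun k hk => Finset.mem_image_of_mem β hk)]
  have h2 : ∀ β₀ ∈ sT.image β, Integrable (fun v => (∑ k ∈ sT with β k = β₀, g k v) * p v) volume := by
    intro β₀ _
    have h3 : MemLp (fun v => ∑ k ∈ sT with β k = β₀, g k v) 2 volume :=
      memLp_finsetSum _ fun k hk => hg k (Finset.mem_filter.1 hk).1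
    exact h3.integrable_mul hp
  simp_rw [h1]
  rw [integral_finsetSum _ h2]
  calc ‖∑ β₀ ∈ sT.image β, ∫ v, (∑ k ∈ sT with β k = β₀, g k v) * p v‖ ^ 2
      ≤ (∑ β₀ ∈ sT.image β, ‖∫ v, (∑ k ∈ sT with β k = β₀, g k v) * p v‖) ^ 2 :=
        pow_le_pow_left₀ (norm_nonneg _) (norm_sum_le _ _) 2
    _ ≤ _ := sq_sum_le_card_mul_sum_sq

/-- the synthesis atoms are in `L²`. -/
theorem coh_atom_memLp {K : OscBd} {Φ : ℝ → E2 → E2 → ℝ} {ζ : E2 → E2 → E2} (h : IsPhase K Φ ζ) {M : ℕ} {R : ℝ} {b : ℕ → ℝ}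
    {ψ : E2 → ℂ} (hψ : PkAmp M R b ψ) (lam : ℝ) {ρ : ℝ} (hρ : 0 < ρ) {c : ℝ} (hc : 0 ≤ c) (V X : E2) (a : ℂ) :
    MemLp (fun v => a * conj (pkt lam Φ c ρ V X ψ v)) 2 volume :=
  (pk_memLp_conj volume (pk_pkt_memLp h hψ lam hρ hc V X)).const_mul a

/-- **L11.5, `d = 1`**. -/
theorem coh_one (K : OscBd) (h0 : 0 < K.a0) (cmax R R' C₁ : ℝ) (b b' : ℕ → ℝ) : ∃ C : ℝ, 0 ≤ C ∧
    ∀ (Φ : ℝ → E2 → E2 → ℝ) (ζ : E2 → E2 → E2), IsPhase K Φ ζ → ∀ (lam ρ ρ' c c' : ℝ), 0 < lam → 0 < ρ' → ρ' ≤ ρ → ρ ≤ 1 →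
      0 ≤ c → c ≤ cmax → 0 ≤ c' → c' ≤ cmax →
      ∀ (ι : Type) (s : Finset ι) (V X : ι → E2) (ψ : ι → E2 → ℂ) (m : ℕ), PkMult2 s V X ρ (lam * ρ)⁻¹ m → (∀ i ∈ s, PkAmp 3 R b (ψ i)) →
      ∀ (κ : Type) (sT : Finset κ) (VT XT : κ → E2) (η : κ → E2 → ℂ) (m' : ℕ), PkMult2 sT VT XT ρ' (lam * ρ')⁻¹ m' → (∀ k ∈ sT, PkAmp 3 R' b' (η k)) →
      ∀ (τ n x₀ : E2), CohFrame τ n → (∀ i ∈ s, lam * ρ * |⟪X i - x₀, n⟫_ℝ| ≤ C₁) →
      ∀ (Bn : Type) (β : κ → Bn) (yb : Bn → ℝ), (∀ k ∈ sT, |⟪VT k, n⟫_ℝ - yb (β k)| ≤ ρ') →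
      ∀ a : κ → ℂ,
        ∑ i ∈ s, pkMass lam Φ c ρ (V i) (X i) (ψ i) (fun v => ∑ k ∈ sT, a k * conj (pkt lam Φ c' ρ' (VT k) (XT k) (η k) v))
          ≤ C * m * m' * (sT.image β).card * (ρ' / ρ) * ∑ k ∈ sT, ‖a k‖ ^ 2 := by
  obtain ⟨Cs, hCs0, hCs⟩ := coh_strip K h0 cmax R C₁ b
  obtain ⟨Cb, hCb0, hCb⟩ := pk_bessel_synth2 K h0 cmax R' b'
  refine ⟨Cs * Cb * (|R'| + 1), by positivity, ?_⟩
  intro Φ ζ h lam ρ ρ' c c' hlam hρ' hρρ hρ1 hc hcm hc' hcm' ι s V X ψ m hm hψ κ sT VT XT η m' hm' hη τ n x₀ hfr hX Bn β yb hyb a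
  have hρ : 0 < ρ := lt_of_lt_of_le hρ' hρρ
  have hρ'1 : ρ' ≤ 1 := hρρ.trans hρ1
  obtain ⟨w, hw⟩ : ∃ w : ℝ, w = (|R'| + 1) * ρ' := ⟨_, rfl⟩
  have hw0 : 0 ≤ w := by rw [hw]; positivity
  obtain ⟨g, hgdef⟩ : ∃ g : κ → E2 → ℂ, g = fun k v => a k * conj (pkt lam Φ c' ρ' (VT k) (XT k) (η k) v) := ⟨_, rfl⟩
  have hg : ∀ k ∈ sT, MemLp (g k) 2 volume := by
    intro k hk
    rw [hgdef]
    exact coh_atom_memLp h (hη k hk) lam hρ' hc' _ _ _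
  -- one bin
  have hbin : ∀ β₀ ∈ sT.image β,
      ∑ i ∈ s, pkMass lam Φ c ρ (V i) (X i) (ψ i) (fun v => ∑ k ∈ sT with β k = β₀, g k v)
        ≤ Cs * m * (w / ρ) * (Cb * m' * ∑ k ∈ sT with β k = β₀, ‖a k‖ ^ 2) := by
    intro β₀ _
    have h3 : MemLp (fun v => ∑ k ∈ sT with β k = β₀, g k v) 2 volume :=
      memLp_finsetSum _ fun k hk => hg k (Finset.mem_filter.1 hk).1
    have h4 : ∀ v, v ∉ cohStrip n (yb β₀) w → ∑ k ∈ sT with β k = β₀, g k v = 0 := by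
      intro v hv
      refine Finset.sum_eq_zero fun k hk => ?_
      rw [Finset.mem_filter] at hk
      by_contra hne
      apply hv
      have h5 : pkt lam Φ c' ρ' (VT k) (XT k) (η k) v ≠ 0 := by
        intro h6
        apply hne
        rw [hgdef]
        simp only [h6, map_zero, mul_zero]
      have h6 := pk_pkt_supp (hη k hk.1) lam hρ' c' (VT k) (XT k) v h5
      have h7 := hyb k hk.1
      rw [hk.2] at h7
      show |⟪v, n⟫_ℝ - yb β₀| ≤ w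
      have h8 : ⟪v, n⟫_ℝ - yb β₀ = ⟪v - VT k, n⟫_ℝ + (⟪VT k, n⟫_ℝ - yb β₀) := by
        rw [inner_sub_left]; ring
      have h9 : |⟪v - VT k, n⟫_ℝ| ≤ ‖v - VT k‖ := by
        have := abs_real_inner_le_norm (v - VT k) n
        rwa [hfr.n1, mul_one] at this
      have h10 : R' * ρ' ≤ |R'| * ρ' := mul_le_mul_of_nonneg_right (le_abs_self _) hρ'.le
      rw [h8, hw]
      calc |⟪v - VT k, n⟫_ℝ + (⟪VT k, n⟫_ℝ - yb β₀)| ≤ |⟪v - VT k, n⟫_ℝ| + |⟪VT k, n⟫_ℝ - yb β₀| := abs_add_le _ _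
        _ ≤ (|R'| + 1) * ρ' := by linarith
    have h5 := hCs Φ ζ h lam ρ c hlam hρ hρ1 hc hcm ι s V X ψ m hm hψ τ n x₀ hfr hX (yb β₀) w hw0 _ h3 h4
    refine h5.trans (mul_le_mul_of_nonneg_left ?_ (by positivity))
    have h6 := hCb Φ ζ h lam ρ' c' hlam hρ' hρ'1 hc' hcm' κ (sT.filter fun k => β k = β₀) VT XT η m'
      (hm'.mono (Finset.filter_subset _ _)) (fun k hk => hη k (Finset.mem_filter.1 hk).1) a
    rw [hgdef]
    exact h6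
  -- all bins
  have h1 : ∀ i ∈ s, pkMass lam Φ c ρ (V i) (X i) (ψ i) (fun v => ∑ k ∈ sT, g k v) ≤
      (sT.image β).card * ∑ β₀ ∈ sT.image β,
        pkMass lam Φ c ρ (V i) (X i) (ψ i) (fun v => ∑ k ∈ sT with β k = β₀, g k v) := by
    intro i hi
    exact coh_bin sT β g hg _ (pk_pkt_memLp h (hψ i hi) lam hρ hc (V i) (X i))
  have e0 : (fun v => ∑ k ∈ sT, a k * conj (pkt lam Φ c' ρ' (VT k) (XT k) (η k) v)) = fun v => ∑ k ∈ sT, g k v := by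
    rw [hgdef]
  rw [e0]
  calc ∑ i ∈ s, pkMass lam Φ c ρ (V i) (X i) (ψ i) (fun v => ∑ k ∈ sT, g k v)
      ≤ ∑ i ∈ s, (sT.image β).card * ∑ β₀ ∈ sT.image β,
        pkMass lam Φ c ρ (V i) (X i) (ψ i) (fun v => ∑ k ∈ sT with β k = β₀, g k v) := Finset.sum_le_sum h1
    _ = (sT.image β).card * ∑ β₀ ∈ sT.image β, ∑ i ∈ s,
        pkMass lam Φ c ρ (V i) (X i) (ψ i) (fun v => ∑ k ∈ sT with β k = β₀, g k v) := by
        rw [← Finset.mul_sum, Finset.sum_comm]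
    _ ≤ (sT.image β).card * ∑ β₀ ∈ sT.image β,
        Cs * m * (w / ρ) * (Cb * m' * ∑ k ∈ sT with β k = β₀, ‖a k‖ ^ 2) :=
        mul_le_mul_of_nonneg_left (Finset.sum_le_sum hbin) (Nat.cast_nonneg _)
    _ = (sT.image β).card * (Cs * m * (w / ρ) * (Cb * m' * ∑ k ∈ sT, ‖a k‖ ^ 2)) := by
        rw [← Finset.mul_sum, ← Finset.mul_sum,
          Finset.sum_fiberwise_of_maps_to (fun k hk => Finset.mem_image_of_mem β hk)]
    _ = _ := by rw [hw]; ring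

/-- **L11.5, `d = 2`**. -/
theorem coh_two (K : OscBd) (h0 : 0 < K.a0) (cmax R R' : ℝ) (b b' : ℕ → ℝ) : ∃ C : ℝ, 0 ≤ C ∧
    ∀ (Φ : ℝ → E2 → E2 → ℝ) (ζ : E2 → E2 → E2), IsPhase K Φ ζ → ∀ (lam ρ ρ' c c' : ℝ), 0 < lam → 0 < ρ' → ρ' ≤ ρ → ρ ≤ 1 →
      0 ≤ c → c ≤ cmax → 0 ≤ c' → c' ≤ cmax →
      ∀ (V₀ X₀ : E2) (ψ₀ : E2 → ℂ), PkAmp 0 R b ψ₀ →
      ∀ (κ : Type) (sT : Finset κ) (VT XT : κ → E2) (η : κ → E2 → ℂ) (m' : ℕ), PkMult2 sT VT XT ρ' (lam * ρ')⁻¹ m' → (∀ k ∈ sT, PkAmp 3 R' b' (η k)) →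
      ∀ (Bn : Type) (β : κ → Bn) (Vb : Bn → E2), (∀ k ∈ sT, ‖VT k - Vb (β k)‖ ≤ ρ') →
      ∀ a : κ → ℂ,
        pkMass lam Φ c ρ V₀ X₀ ψ₀ (fun v => ∑ k ∈ sT, a k * conj (pkt lam Φ c' ρ' (VT k) (XT k) (η k) v))
          ≤ C * m' * (sT.image β).card * (ρ' / ρ) ^ 2 * ∑ k ∈ sT, ‖a k‖ ^ 2 := by
  obtain ⟨Cb, hCb0, hCb⟩ := pk_bessel_synth2 K h0 cmax R' b'
  obtain ⟨v₁, hv₁⟩ : ∃ v₁ : ℝ, v₁ = (volume (ball (0 : E2) 1)).toReal := ⟨_, rfl⟩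
  have hv₁0 : 0 ≤ v₁ := by rw [hv₁]; exact ENNReal.toReal_nonneg
  refine ⟨Cb * (b 0 ^ 2 * (|R'| + 1) ^ 2 * v₁), by positivity, ?_⟩
  intro Φ ζ h lam ρ ρ' c c' hlam hρ' hρρ hρ1 hc hcm hc' hcm' V₀ X₀ ψ₀ hψ₀ κ sT VT XT η m' hm' hη Bn β Vb hVb a
  have hρ : 0 < ρ := lt_of_lt_of_le hρ' hρρ
  have hρ'1 : ρ' ≤ 1 := hρρ.trans hρ1
  obtain ⟨w, hw⟩ : ∃ w : ℝ, w = (|R'| + 1) * ρ' := ⟨_, rfl⟩
  have hw0 : 0 ≤ w := by rw [hw]; positivity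
  obtain ⟨g, hgdef⟩ : ∃ g : κ → E2 → ℂ, g = fun k v => a k * conj (pkt lam Φ c' ρ' (VT k) (XT k) (η k) v) := ⟨_, rfl⟩
  have hg : ∀ k ∈ sT, MemLp (g k) 2 volume := by
    intro k hk
    rw [hgdef]
    exact coh_atom_memLp h (hη k hk) lam hρ' hc' _ _ _
  have hp : MemLp (pkt lam Φ c ρ V₀ X₀ ψ₀) 2 volume := pk_pkt_memLp h hψ₀ lam hρ hc V₀ X₀
  have hpn : ∀ v, ‖pkt lam Φ c ρ V₀ X₀ ψ₀ v‖ ≤ ρ⁻¹ * b 0 := by
    intro v
    unfold pkt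
    rw [norm_mul, norm_mul, mul_comm Complex.I, Complex.norm_exp_ofReal_mul_I, mul_one, Complex.norm_real,
      Real.norm_eq_abs, abs_of_pos (inv_pos.2 hρ)]
    exact mul_le_mul_of_nonneg_left (hψ₀.norm_le _) (inv_pos.2 hρ).le
  -- one bin
  have hbin : ∀ β₀ ∈ sT.image β,
      ‖∫ v, (∑ k ∈ sT with β k = β₀, g k v) * pkt lam Φ c ρ V₀ X₀ ψ₀ v‖ ^ 2
        ≤ (Cb * m' * ∑ k ∈ sT with β k = β₀, ‖a k‖ ^ 2) * ((ρ⁻¹ * b 0) ^ 2 * (w ^ 2 * v₁)) := by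
    intro β₀ _
    have h3 : MemLp (fun v => ∑ k ∈ sT with β k = β₀, g k v) 2 volume :=
      memLp_finsetSum _ fun k hk => hg k (Finset.mem_filter.1 hk).1
    have h4 : ∀ v, v ∉ closedBall (Vb β₀) w → ∑ k ∈ sT with β k = β₀, g k v = 0 := by
      intro v hv
      refine Finset.sum_eq_zero fun k hk => ?_
      rw [Finset.mem_filter] at hk
      by_contra hne
      apply hv
      have h5 : pkt lam Φ c' ρ' (VT k) (XT k) (η k) v ≠ 0 := by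
        intro h6
        apply hne
        rw [hgdef]
        simp only [h6, map_zero, mul_zero]
      have h6 := pk_pkt_supp (hη k hk.1) lam hρ' c' (VT k) (XT k) v h5
      have h7 := hVb k hk.1
      rw [hk.2] at h7
      rw [mem_closedBall, dist_eq_norm]
      have h10 : R' * ρ' ≤ |R'| * ρ' := mul_le_mul_of_nonneg_right (le_abs_self _) hρ'.le
      calc ‖v - Vb β₀‖ = ‖(v - VT k) + (VT k - Vb β₀)‖ := by rw [sub_add_sub_cancel]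
        _ ≤ ‖v - VT k‖ + ‖VT k - Vb β₀‖ := norm_add_le _ _
        _ ≤ w := by rw [hw]; linarith
    have e1 : ∫ v, (∑ k ∈ sT with β k = β₀, g k v) * pkt lam Φ c ρ V₀ X₀ ψ₀ v
        = ∫ v, (∑ k ∈ sT with β k = β₀, g k v) * (closedBall (Vb β₀) w).indicator (pkt lam Φ c ρ V₀ X₀ ψ₀) v := by
      refine integral_congr_ae (Filter.Eventually.of_forall fun v => ?_)
      by_cases hv : v ∈ closedBall (Vb β₀) w
      · simp only [indicator_of_mem hv]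
      · simp only [h4 v hv, zero_mul]
    rw [e1]
    refine (pk_pair_le volume _ _ h3 (hp.indicator measurableSet_closedBall)).trans ?_
    have h6 := hCb Φ ζ h lam ρ' c' hlam hρ' hρ'1 hc' hcm' κ (sT.filter fun k => β k = β₀) VT XT η m'
      (hm'.mono (Finset.filter_subset _ _)) (fun k hk => hη k (Finset.mem_filter.1 hk).1) a
    have h6' : ∫ v, ‖∑ k ∈ sT with β k = β₀, g k v‖ ^ 2 ≤ Cb * m' * ∑ k ∈ sT with β k = β₀, ‖a k‖ ^ 2 := by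
      rw [hgdef]
      exact h6
    have h7 : ∫ v, ‖(closedBall (Vb β₀) w).indicator (pkt lam Φ c ρ V₀ X₀ ψ₀) v‖ ^ 2
        ≤ (ρ⁻¹ * b 0) ^ 2 * (w ^ 2 * v₁) := by
      have e2 : ∀ v, ‖(closedBall (Vb β₀) w).indicator (pkt lam Φ c ρ V₀ X₀ ψ₀) v‖ ^ 2
          = (closedBall (Vb β₀) w).indicator (fun v => ‖pkt lam Φ c ρ V₀ X₀ ψ₀ v‖ ^ 2) v := by
        intro v
        by_cases hv : v ∈ closedBall (Vb β₀) w
        · simp only [indicator_of_mem hv]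
        · simp only [indicator_of_notMem hv, norm_zero, ne_eq, OfNat.ofNat_ne_zero, not_false_eq_true, zero_pow]
      simp_rw [e2]
      rw [integral_indicator measurableSet_closedBall]
      have hvol : (volume (closedBall (Vb β₀) w)).toReal = w ^ 2 * v₁ := by
        rw [Measure.addHaar_closedBall volume (Vb β₀) hw0, ENNReal.toReal_mul, ENNReal.toReal_ofReal (by positivity), hv₁]
        congr 2
        simp
      rw [← hvol]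
      refine (le_abs_self _).trans ?_
      rw [← Real.norm_eq_abs]
      refine norm_setIntegral_le_of_norm_le_const (isCompact_closedBall (Vb β₀) w).measure_lt_top fun v _ => ?_
      rw [Real.norm_eq_abs, abs_of_nonneg (by positivity)]
      exact pow_le_pow_left₀ (norm_nonneg _) (hpn v) 2
    exact mul_le_mul h6' h7 (integral_nonneg fun v => by positivity)
      (by positivity)
  have e0 : (fun v => ∑ k ∈ sT, a k * conj (pkt lam Φ c' ρ' (VT k) (XT k) (η k) v)) = fun v => ∑ k ∈ sT, g k v := by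
    rw [hgdef]
  rw [e0]
  calc pkMass lam Φ c ρ V₀ X₀ ψ₀ (fun v => ∑ k ∈ sT, g k v)
      ≤ (sT.image β).card * ∑ β₀ ∈ sT.image β,
          ‖∫ v, (∑ k ∈ sT with β k = β₀, g k v) * pkt lam Φ c ρ V₀ X₀ ψ₀ v‖ ^ 2 := coh_bin sT β g hg _ hp
    _ ≤ (sT.image β).card * ∑ β₀ ∈ sT.image β,
          (Cb * m' * ∑ k ∈ sT with β k = β₀, ‖a k‖ ^ 2) * ((ρ⁻¹ * b 0) ^ 2 * (w ^ 2 * v₁)) :=
        mul_le_mul_of_nonneg_left (Finset.sum_le_sum hbin) (Nat.cast_nonneg _)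
    _ = (sT.image β).card * ((Cb * m' * ∑ k ∈ sT, ‖a k‖ ^ 2) * ((ρ⁻¹ * b 0) ^ 2 * (w ^ 2 * v₁))) := by
        rw [← Finset.sum_mul, ← Finset.mul_sum,
          Finset.sum_fiberwise_of_maps_to (fun k hk => Finset.mem_image_of_mem β hk)]
    _ = _ := by rw [hw]; field_simp

/-- local multiplicity of a finite family of sites (counts in the open cells centred at the sites), as in `PTest.Obeys.multS`, `Atoms.Good.mult` -/
def CohMult {ι : Type} (s : Finset ι) (site : ι → Site) (ρ σ : ℝ) (m : ℕ) : Prop :=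
  ∀ i ∈ s, ∀ t : Finset ι, t ⊆ s → (∀ j ∈ t, ‖(site j).V - (site i).V‖ < ρ ∧ ‖(site j).X - (site i).X‖ < σ) → t.card ≤ m

/-- **L11.5, `d = 1`, for sites** (`Pkt/Base` vocabulary). -/
theorem coh_site_one (K : OscBd) (h0 : 0 < K.a0) (R R' C₁ : ℝ) (b b' : ℕ → ℝ) : ∃ C : ℝ, 0 ≤ C ∧
    ∀ (Φ : ℝ → E2 → E2 → ℝ) (ζ : E2 → E2 → E2), IsPhase K Φ ζ → ∀ (lam ρ ρ' c c' : ℝ), 0 < lam → 0 < ρ' → ρ' ≤ ρ → ρ ≤ 1 →
      0 ≤ c → c ≤ 1 → 0 ≤ c' → c' ≤ 1 →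
      ∀ (ι : Type) (s : Finset ι) (site : ι → Site) (m : ℕ), (∀ i ∈ s, (site i).C = c) → (∀ i ∈ s, PkAmp 3 R b (site i).ψ) →
        CohMult s site ρ (lam * ρ)⁻¹ m →
      ∀ (κ : Type) (sT : Finset κ) (asite : κ → Site) (m' : ℕ), (∀ k ∈ sT, (asite k).C = c') → (∀ k ∈ sT, PkAmp 3 R' b' (asite k).ψ) →
        CohMult sT asite ρ' (lam * ρ')⁻¹ m' →
      ∀ (τ n x₀ : E2), CohFrame τ n → (∀ i ∈ s, lam * ρ * |⟪(site i).X - x₀, n⟫_ℝ| ≤ C₁) →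
      ∀ (Bn : Type) (β : κ → Bn) (yb : Bn → ℝ), (∀ k ∈ sT, |⟪(asite k).V, n⟫_ℝ - yb (β k)| ≤ ρ') →
      ∀ a : κ → ℂ,
        ∑ i ∈ s, mass lam ρ Φ (fun v => ∑ k ∈ sT, a k * atom lam ρ' Φ (asite k) v) (site i)
          ≤ C * m * m' * (sT.image β).card * (ρ' / ρ) * ∑ k ∈ sT, ‖a k‖ ^ 2 := by
  obtain ⟨C₀, hC₀⟩ := pk_mult2_of_local
  obtain ⟨C, hC0, hC⟩ := coh_one K h0 1 R R' C₁ b b'
  refine ⟨C * (C₀ : ℝ) ^ 2, by positivity, ?_⟩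
  intro Φ ζ h lam ρ ρ' c c' hlam hρ' hρρ hρ1 hc hc1 hc' hc'1 ι s site m hsc hamp hloc κ sT asite m' hTc hTamp hTloc τ n x₀ hfr hX
    Bn β yb hyb a
  have hρ : 0 < ρ := lt_of_lt_of_le hρ' hρρ
  have hm := hC₀ ι s (fun i => (site i).V) (fun i => (site i).X) ρ (lam * ρ)⁻¹ m hρ (by positivity) hloc
  have hm' := hC₀ κ sT (fun k => (asite k).V) (fun k => (asite k).X) ρ' (lam * ρ')⁻¹ m' hρ' (by positivity) hTloc
  have h1 := hC Φ ζ h lam ρ ρ' c c' hlam hρ' hρρ hρ1 hc hc1 hc' hc'1 ι s _ _ (fun i => (site i).ψ) _ hm hamp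
    κ sT _ _ (fun k z => conj ((asite k).ψ z)) _ hm' (fun k hk => pk_amp_conj (hTamp k hk)) τ n x₀ hfr hX Bn β yb hyb a
  have e : (fun v => ∑ k ∈ sT, a k * atom lam ρ' Φ (asite k) v)
      = fun v => ∑ k ∈ sT, a k * conj (pkt lam Φ c' ρ' (asite k).V (asite k).X (fun z => conj ((asite k).ψ z)) v) := by
    funext v
    exact Finset.sum_congr rfl fun k hk => by rw [pk_atom_eq, hTc k hk]
  have e' : ∑ i ∈ s, mass lam ρ Φ (fun v => ∑ k ∈ sT, a k * atom lam ρ' Φ (asite k) v) (site i)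
      = ∑ i ∈ s, pkMass lam Φ c ρ (site i).V (site i).X (site i).ψ
          (fun v => ∑ k ∈ sT, a k * conj (pkt lam Φ c' ρ' (asite k).V (asite k).X (fun z => conj ((asite k).ψ z)) v)) :=
    Finset.sum_congr rfl fun i hi => by rw [pk_mass_eq, hsc i hi, e]
  rw [e']
  refine h1.trans (le_of_eq ?_)
  push_cast
  ring

/-- **L11.5, `d = 2`, for sites**. -/
theorem coh_site_two (K : OscBd) (h0 : 0 < K.a0) (R R' : ℝ) (b b' : ℕ → ℝ) : ∃ C : ℝ, 0 ≤ C ∧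
    ∀ (Φ : ℝ → E2 → E2 → ℝ) (ζ : E2 → E2 → E2), IsPhase K Φ ζ → ∀ (lam ρ ρ' c' : ℝ), 0 < lam → 0 < ρ' → ρ' ≤ ρ → ρ ≤ 1 →
      0 ≤ c' → c' ≤ 1 →
      ∀ s₀ : Site, 0 ≤ s₀.C → s₀.C ≤ 1 → PkAmp 0 R b s₀.ψ →
      ∀ (κ : Type) (sT : Finset κ) (asite : κ → Site) (m' : ℕ), (∀ k ∈ sT, (asite k).C = c') → (∀ k ∈ sT, PkAmp 3 R' b' (asite k).ψ) →
        CohMult sT asite ρ' (lam * ρ')⁻¹ m' →
      ∀ (Bn : Type) (β : κ → Bn) (Vb : Bn → E2), (∀ k ∈ sT, ‖(asite k).V - Vb (β k)‖ ≤ ρ') →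
      ∀ a : κ → ℂ,
        mass lam ρ Φ (fun v => ∑ k ∈ sT, a k * atom lam ρ' Φ (asite k) v) s₀
          ≤ C * m' * (sT.image β).card * (ρ' / ρ) ^ 2 * ∑ k ∈ sT, ‖a k‖ ^ 2 := by
  obtain ⟨C₀, hC₀⟩ := pk_mult2_of_local
  obtain ⟨C, hC0, hC⟩ := coh_two K h0 1 R R' b b'
  refine ⟨C * (C₀ : ℝ), by positivity, ?_⟩
  intro Φ ζ h lam ρ ρ' c' hlam hρ' hρρ hρ1 hc' hc'1 s₀ hs0 hs1 hamp κ sT asite m' hTc hTamp hTloc Bn β Vb hVb a
  have hm' := hC₀ κ sT (fun k => (asite k).V) (fun k => (asite k).X) ρ' (lam * ρ')⁻¹ m' hρ' (by positivity) hTloc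
  have h1 := hC Φ ζ h lam ρ ρ' s₀.C c' hlam hρ' hρρ hρ1 hs0 hs1 hc' hc'1 s₀.V s₀.X s₀.ψ hamp
    κ sT _ _ (fun k z => conj ((asite k).ψ z)) _ hm' (fun k hk => pk_amp_conj (hTamp k hk)) Bn β Vb hVb a
  have e : (fun v => ∑ k ∈ sT, a k * atom lam ρ' Φ (asite k) v)
      = fun v => ∑ k ∈ sT, a k * conj (pkt lam Φ c' ρ' (asite k).V (asite k).X (fun z => conj ((asite k).ψ z)) v) := by
    funext v
    exact Finset.sum_congr rfl fun k hk => by rw [pk_atom_eq, hTc k hk]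
  rw [pk_mass_eq, e]
  refine h1.trans (le_of_eq ?_)
  push_cast
  ring

end Claimed.Agent.R255
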