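import Claimed.Agent.R255.Pk.Bessel

/-!
# R255 / Coh / Strip : BR LEMMA 11.5 (PACKET COHERENCE), THE STRIP BESSEL INEQUALITY        (architect helper207)   -- KEEP

SIMPLER THAN THE PAPER (no continuous position integral, no Fourier series of the amplitudes, no `x`-regularity of `Φ`, no factor `R²`, no candidate proximity).
KEY FACT (`coh_strip`).  Let `f ∈ L²` vanish off the velocity strip `Σ = {v : |⟨v,n⟩ - y| ≤ w}` and let the analysis sites `(c, V_i, X_i, ψ_i)` (one time, scale `ρ`, `σ = (λρ)⁻¹`, multiplicity `m`)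
have positions in a strip of normal width `σ`:  `λρ |⟨X_i - x₀, n⟩| ≤ C₁`.  Then     `∑_i m_i(f) ≤ C m (w/ρ) ‖f‖₂²`.
PROOF.  `∫ f · pkt_i = ∫ f · (1_Σ pkt_i)`;  abstract Bessel (`pk_bessel_fun_anal`) for `g_i = 1_Σ pkt_i`;  Gram entries  `∫_Σ pkt_i conj pkt_j`:  in packet coordinates `v = V_i + ρ z` the domain is a strip of
width `w/ρ` in the direction `n`; Fubini in the frame `(τ,n)`; the inner integral (along `τ`) is `O((1 + λρ|X_i - X_j|)^{-M})` by the 1D non-stationary phase `pk_nsp` (`E = ℝ`), because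
`∂_τ φ = λρ ⟨B (X_i - X_j), τ⟩`, `B` symmetric definite, `X_i - X_j = α τ + β n` with `λρ|β| ≤ 2C₁`:  `± ∂_τ φ ≥ a0 λρ|α| - A₀ 2C₁`.    Row sums: `pk_mult2_slice`, `pk_count` as in `pk_row_sum`.
LEAVES: COH-A (`coh_decomp`, `coh_fubini`), COH-B (`coh_D_lower`, `coh_inner`), COH-C (`coh_gram_z`, `coh_gram`, `coh_gram_far`), COH-D (`coh_row`, `coh_strip`).
-/

set_option autoImplicit false

namespace Claimed.Agent.R255

open MeasureTheory Metric Set Osc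
open scoped ContDiff InnerProductSpace ComplexConjugate

/-- the strip `{v : |⟨v,n⟩ - y| ≤ w}` -/
def cohStrip (n : E2) (y w : ℝ) : Set E2 := {v | |⟪v, n⟫_ℝ - y| ≤ w}

/-- an orthonormal frame of the plane -/
structure CohFrame (τ n : E2) : Prop where
  τ1 : ‖τ‖ = 1
  n1 : ‖n‖ = 1
  orth : ⟪τ, n⟫_ℝ = 0

/-! ### COH-A -/

theorem coh_orthonormal {τ n : E2} (h : CohFrame τ n) : Orthonormal ℝ ![τ, n] := by
  rw [orthonormal_iff_ite]
  intro i j
  fin_cases i <;> fin_cases j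
  · simp [h.τ1]
  · simpa using h.orth
  · simpa [real_inner_comm] using h.orth
  · simp [h.n1]

/-- the orthonormal basis of a frame -/
theorem coh_basis {τ n : E2} (h : CohFrame τ n) : ∃ b : OrthonormalBasis (Fin 2) ℝ E2, b 0 = τ ∧ b 1 = n := by
  refine ⟨OrthonormalBasis.mk (coh_orthonormal h) (by
    have hli := (coh_orthonormal h).linearIndependent
    have := hli.span_eq_top_of_card_eq_finrank (by simp)
    exact this.ge), by simp, by simp⟩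

/-- PLAN: `![τ, n]` is orthonormal, `finrank ℝ E2 = 2`: it is an orthonormal basis (`basisOfOrthonormalOfCardEqFinrank` / `OrthonormalBasis.mk`), `OrthonormalBasis.sum_repr'`. -/
theorem coh_decomp {τ n : E2} (h : CohFrame τ n) (w : E2) : w = ⟪w, τ⟫_ℝ • τ + ⟪w, n⟫_ℝ • n := by
  obtain ⟨b, b0, b1⟩ := coh_basis h
  have := b.sum_repr' w
  rw [Fin.sum_univ_two, b0, b1] at this
  rw [real_inner_comm τ w, real_inner_comm n w]
  exact this.symm

theorem coh_norm_le {τ n : E2} (h : CohFrame τ n) (w : E2) : ‖w‖ ≤ |⟪w, τ⟫_ℝ| + |⟪w, n⟫_ℝ| := by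
  conv_lhs => rw [coh_decomp h w]
  refine (norm_add_le _ _).trans ?_
  rw [norm_smul, norm_smul, h.τ1, h.n1, mul_one, mul_one, Real.norm_eq_abs, Real.norm_eq_abs]

/-- Fubini in the frame.  PLAN: `b : OrthonormalBasis (Fin 2) ℝ E2` with `b 0 = τ`, `b 1 = n`; `b.measurePreserving_repr_symm`, `EuclideanSpace.volume_preserving_measurableEquiv` (or `..._symm`),
`MeasureTheory.volume_preserving_finTwoArrow ℝ`, `integral_prod` (+ `integral_prod_symm` for the order). -/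
theorem coh_fubini {τ n : E2} (h : CohFrame τ n) (F : E2 → ℂ) (hF : Integrable F) :
    ∫ z, F z = ∫ y : ℝ, ∫ x : ℝ, F (x • τ + y • n) := by
  obtain ⟨b, b0, b1⟩ := coh_basis h
  have m1 := b.measurePreserving_repr_symm
  have m2 := (EuclideanSpace.volume_preserving_symm_measurableEquiv_toLp (Fin 2)).symm
  have m3 := (MeasureTheory.volume_preserving_finTwoArrow ℝ).symm
  have m := m1.comp (m2.comp m3)
  have he : MeasurableEmbedding (b.repr.symm ∘ ((MeasurableEquiv.toLp 2 (Fin 2 → ℝ)).symm.symm ∘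
      (MeasurableEquiv.finTwoArrow (α := ℝ)).symm)) :=
    b.repr.symm.toHomeomorph.measurableEmbedding.comp
      ((MeasurableEquiv.measurableEmbedding _).comp (MeasurableEquiv.measurableEmbedding _))
  have hv : ∀ p : ℝ × ℝ, (b.repr.symm ∘ ((MeasurableEquiv.toLp 2 (Fin 2 → ℝ)).symm.symm ∘
      (MeasurableEquiv.finTwoArrow (α := ℝ)).symm)) p = p.1 • τ + p.2 • n := by
    intro p
    have e := b.sum_repr_symm (WithLp.toLp 2 ![p.1, p.2])
    rw [Fin.sum_univ_two, b0, b1] at e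
    simpa using e.symm
  rw [← m.integral_comp he F]
  have hi : Integrable (fun p : ℝ × ℝ => F (p.1 • τ + p.2 • n)) (volume.prod volume) := by
    have := (m.integrable_comp_emb he).2 hF
    refine this.congr (Filter.Eventually.of_forall fun p => ?_)
    show F _ = _
    rw [hv]
  calc ∫ p : ℝ × ℝ, F ((b.repr.symm ∘ ((MeasurableEquiv.toLp 2 (Fin 2 → ℝ)).symm.symm ∘
      (MeasurableEquiv.finTwoArrow (α := ℝ)).symm)) p) = ∫ p : ℝ × ℝ, F (p.1 • τ + p.2 • n) := by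
        simp only [hv]
    _ = _ := integral_prod_symm _ hi

theorem coh_strip_measurable (n : E2) (y w : ℝ) : MeasurableSet (cohStrip n y w) := by
  have hc : Continuous fun v : E2 => |⟪v, n⟫_ℝ - y| := by fun_prop
  exact (isClosed_le hc continuous_const).measurableSet

/-! ### COH-B -/

variable {K : OscBd} {Φ : ℝ → E2 → E2 → ℝ} {ζ : E2 → E2 → E2}

/-- equal times: lower bound of the difference field in an ARBITRARY unit direction `e`, if `X - X' = α e + w'`, `α ≥ 0`.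
PLAN: `pk_zeta_sub` : `pkD z = ∫₀¹ N_s (X - X') ds`, `N_s = dpZ ζ (v, ·)`;  `sg ⟨N_s e, e⟩ ≥ a0` (`pk_sg_lower`), `|⟨N_s w', e⟩| ≤ A 0 ‖w'‖` (`pk_dpZ_norm_le`); integrate (`integral_inner`, `intervalIntegral.integral_mono_on`…). -/
theorem coh_D_lower (h : IsPhase K Φ ζ) (V X X' : E2) (ρ c : ℝ) (z e w' : E2) (α : ℝ) (he : ‖e‖ = 1) (hα : 0 ≤ α)
    (hX : X - X' = α • e + w') :
    K.a0 * α - K.A 0 * ‖w'‖ ≤ pkSg h * ⟪pkD ζ V ρ c c X X' z, e⟫_ℝ := by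
  obtain ⟨v, hv⟩ : ∃ v, v = V + ρ • z := ⟨_, rfl⟩
  obtain ⟨p, hp⟩ : ∃ p, p = X - c • v := ⟨_, rfl⟩
  obtain ⟨q, hq⟩ : ∃ q, q = X' - c • v := ⟨_, rfl⟩
  have hpq : p - q = α • e + w' := by rw [hp, hq, sub_sub_sub_cancel_right, hX]
  have hD : pkD ζ V ρ c c X X' z = ζ v p - ζ v q := by rw [pkD, hp, hq, hv]
  have hc := pk_zeta_seg_continuous h v p q
  have e1 : ⟪ζ v p - ζ v q, e⟫_ℝ = ∫ s in (0 : ℝ)..1, ⟪dpZ ζ (v, q + s • (p - q)) (p - q), e⟫_ℝ := by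
    rw [pk_zeta_sub h v p q, real_inner_comm]
    have := (innerSL ℝ e).intervalIntegral_comp_comm (hc.intervalIntegrable (μ := MeasureTheory.volume) 0 1)
    simp only [innerSL_apply_apply] at this
    rw [← this]
    refine intervalIntegral.integral_congr fun s _ => ?_
    exact real_inner_comm _ _
  rw [hD, e1, ← intervalIntegral.integral_const_mul]
  have hc2 : Continuous (fun s : ℝ => pkSg h * ⟪dpZ ζ (v, q + s • (p - q)) (p - q), e⟫_ℝ) :=
    continuous_const.mul (hc.inner continuous_const)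
  have h2 : ∫ _s in (0 : ℝ)..1, (K.a0 * α - K.A 0 * ‖w'‖) ≤
      ∫ s in (0 : ℝ)..1, pkSg h * ⟪dpZ ζ (v, q + s • (p - q)) (p - q), e⟫_ℝ := by
    refine intervalIntegral.integral_mono_on zero_le_one (continuous_const.intervalIntegrable _ _)
      (hc2.intervalIntegrable _ _) fun s _ => ?_
    rw [hpq, map_add, map_smul, inner_add_left, real_inner_smul_left, mul_add]
    have h3 := pk_sg_lower h (v, q + s • (α • e + w')) e
    rw [he, one_pow, mul_one] at h3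
    have h4 : |pkSg h * ⟪dpZ ζ (v, q + s • (α • e + w')) w', e⟫_ℝ| ≤ K.A 0 * ‖w'‖ := by
      rw [abs_mul, pk_sg_abs, one_mul]
      refine (abs_real_inner_le_norm _ _).trans ?_
      rw [he, mul_one]
      exact (ContinuousLinearMap.le_opNorm _ _).trans
        (mul_le_mul_of_nonneg_right (pk_dpZ_norm_le h _) (norm_nonneg _))
    have h5 := (abs_le.1 h4).1
    have h6 := mul_le_mul_of_nonneg_left h3 hα
    linarith
  simpa using h2

theorem cohb_ip_tau {τ n : E2} (h : CohFrame τ n) (x y : ℝ) : ⟪x • τ + y • n, τ⟫_ℝ = x := by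
  rw [inner_add_left, real_inner_smul_left, real_inner_smul_left, real_inner_self_eq_norm_sq, h.τ1,
    real_inner_comm, h.orth]
  ring

theorem cohb_ip_n {τ n : E2} (h : CohFrame τ n) (x y : ℝ) : ⟪x • τ + y • n, n⟫_ℝ = y := by
  rw [inner_add_left, real_inner_smul_left, real_inner_smul_left, real_inner_self_eq_norm_sq, h.n1, h.orth]
  ring

/-- the inner integral along `τ`.
PLAN.  `t = λρ‖X - X'‖`, `α = ⟨X - X',τ⟩`, `β = ⟨X - X',n⟩`, `λρ|β| ≤ C₁`, `t ≤ λρ|α| + C₁` (`coh_norm_le`).   If `|y| > R` the integrand vanishes (`‖xτ + yn‖ ≥ |y|`).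
If `t ≤ T₀ := max 1 (2 (1 + A₀/a0) C₁ + ...)`: trivial bound `pk_nsp_base` with `S = Icc (-R) R`.   Otherwise `pk_nsp` with `E = ℝ`, `μ = volume`, `e = ± 1` (sign `pkSg h * sign α`), `Ω = Ioo (-(R+1)) (R+1)`, `S = Icc (-R) R`,
`φ₁ x = pkPh … (xτ + yn)`, `fderiv φ₁ x e = e λρ ⟨pkD (xτ+yn), τ⟩` (`pk_ph_fderiv`, chain rule), lower bound `m = a0 λρ|α| - A₀ C₁ ≥ c t` by `coh_D_lower`,
`Cb` bounds from `pk_D_cb K cmax (2R+2)` composed with the affine map `x ↦ xτ + yn` (`Cb.comp_clm`, `Cb.comp_add`, `Cb.clm_post (innerSL ℝ τ)`), amplitude bounds of `x ↦ a (xτ + yn)` likewise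
(`ContinuousLinearMap.iteratedFDeriv_comp_right`, norm of `x ↦ xτ` is `1`). -/
theorem coh_inner (K : OscBd) (h0 : 0 < K.a0) (cmax R C₁ : ℝ) (M : ℕ) (b : ℕ → ℝ) : ∃ C : ℝ, 0 ≤ C ∧
    ∀ (Φ : ℝ → E2 → E2 → ℝ) (ζ : E2 → E2 → E2), IsPhase K Φ ζ → ∀ (lam ρ c : ℝ) (V X X' : E2) (a : E2 → ℂ), 0 < lam → 0 < ρ → ρ ≤ 1 →
      0 ≤ c → c ≤ cmax → PkAmp M R b a → ∀ (τ n : E2), CohFrame τ n → lam * ρ * |⟪X - X', n⟫_ℝ| ≤ C₁ → ∀ y : ℝ,
      ‖∫ x : ℝ, a (x • τ + y • n) * Complex.exp (Complex.I * ((pkPh lam Φ V ρ c c X X' (x • τ + y • n) : ℝ) : ℂ))‖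
        ≤ C * ((1 + lam * ρ * ‖X - X'‖) ^ M)⁻¹ := by
  obtain ⟨A', hA'0, hA'⟩ := pk_D_cb K cmax (2 * R + 2)
  obtain ⟨C₂, hC₂0, hC₂⟩ := pk_nsp (E := ℝ) volume M b (fun j => A' j / (K.a0 / 2))
  obtain ⟨vol, hvol⟩ : ∃ vol : ℝ, vol = (volume (Icc (-R) R)).toReal := ⟨_, rfl⟩
  have hvol0 : 0 ≤ vol := by rw [hvol]; exact ENNReal.toReal_nonneg
  obtain ⟨T₀, hT₀⟩ : ∃ T₀ : ℝ, T₀ = 1 + 2 * (1 + |K.A 0| / K.a0) * |C₁| := ⟨_, rfl⟩
  have hT₀1 : 1 ≤ T₀ := by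
    rw [hT₀]
    have : 0 ≤ 2 * (1 + |K.A 0| / K.a0) * |C₁| := by positivity
    linarith
  refine ⟨(C₂ * ((K.a0 / 2) ^ M)⁻¹ * 2 ^ M + |b 0| * (1 + T₀) ^ M) * vol, by positivity, ?_⟩
  intro Φ ζ h lam ρ c V X X' a hlam hρ hρ1 hc hcm ha τ n hf hβ y
  obtain ⟨t, ht⟩ : ∃ t : ℝ, t = lam * ρ * ‖X - X'‖ := ⟨_, rfl⟩
  rw [← ht]
  have ht0 : 0 ≤ t := by rw [ht]; positivity
  have hpow : 0 < (1 + t) ^ M := by positivity
  have hL : 0 < lam * ρ := mul_pos hlam hρ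
  by_cases hy : |y| ≤ R
  swap
  · -- the integrand vanishes
    have h1 : ∀ x : ℝ, a (x • τ + y • n) = 0 := by
      intro x
      by_contra hne
      have h2 := ha.supp _ hne
      have h3 := abs_real_inner_le_norm (x • τ + y • n) n
      rw [cohb_ip_n hf, hf.n1, mul_one] at h3
      exact hy (h3.trans h2)
    simp only [h1, zero_mul, integral_zero, norm_zero]
    positivity
  have hR0 : 0 ≤ R := (abs_nonneg y).trans hy
  obtain ⟨π, hπ⟩ : ∃ π : ℝ →L[ℝ] E2, π = ContinuousLinearMap.toSpanSingleton ℝ τ := ⟨_, rfl⟩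
  have hπa : ∀ x, π x = x • τ := fun x => by rw [hπ, ContinuousLinearMap.toSpanSingleton_apply]
  have hπn : ‖π‖ = 1 := by rw [hπ, ContinuousLinearMap.norm_toSpanSingleton, hf.τ1]
  obtain ⟨a₁, ha₁⟩ : ∃ a₁ : ℝ → ℂ, a₁ = fun x => a (x • τ + y • n) := ⟨_, rfl⟩
  obtain ⟨φ₁, hφ₁⟩ : ∃ φ₁ : ℝ → ℝ, φ₁ = fun x => pkPh lam Φ V ρ c c X X' (x • τ + y • n) := ⟨_, rfl⟩
  have hint : (∫ x : ℝ, a (x • τ + y • n) *
      Complex.exp (Complex.I * ((pkPh lam Φ V ρ c c X X' (x • τ + y • n) : ℝ) : ℂ)))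
      = ∫ x : ℝ, a₁ x * Complex.exp (Complex.I * ((φ₁ x : ℝ) : ℂ)) := by rw [ha₁, hφ₁]
  rw [hint]
  have hsm : ContDiff ℝ ∞ a₁ := by
    rw [ha₁]
    exact ha.smooth.comp (by fun_prop)
  have hsupp : tsupport a₁ ⊆ Icc (-R) R := by
    refine closure_minimal (fun x hx => ?_) isClosed_Icc
    have h1 : ‖x • τ + y • n‖ ≤ R := ha.supp _ (by rw [ha₁] at hx; exact hx)
    have h2 : |x| ≤ R := by
      have h3 := abs_real_inner_le_norm (x • τ + y • n) τ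
      rw [cohb_ip_tau hf, hf.τ1, mul_one] at h3
      exact h3.trans h1
    exact abs_le.1 h2
  have hbd : ∀ j ≤ M, ∀ x, ‖iteratedFDeriv ℝ j a₁ x‖ ≤ b j := by
    intro j hj x
    have e1 : a₁ = (fun w => a (y • n + w)) ∘ π := by
      rw [ha₁]
      funext x
      simp only [Function.comp, hπa, add_comm]
    have hs2 : ContDiff ℝ ∞ (fun w => a (y • n + w)) := ha.smooth.comp (by fun_prop)
    rw [e1, π.iteratedFDeriv_comp_right hs2 x (i := j) (by exact_mod_cast le_top)]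
    refine (ContinuousMultilinearMap.norm_compContinuousLinearMap_le _ _).trans ?_
    rw [Finset.prod_const, hπn, one_pow, mul_one, iteratedFDeriv_comp_add_left]
    exact ha.bound j hj _
  rcases le_or_gt t T₀ with ht1 | ht1
  · -- trivial bound
    have h1 := pk_nsp_base (volume : Measure ℝ) (φ := φ₁) (isCompact_Icc (a := -R) (b := R)) hsupp (B := |b 0|)
      (fun x => by
        have := hbd 0 (Nat.zero_le M) x
        rw [norm_iteratedFDeriv_zero] at this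
        exact this.trans (le_abs_self _))
    rw [← hvol] at h1
    refine h1.trans ?_
    rw [← div_eq_mul_inv, le_div_iff₀ hpow]
    have h2 : (1 + t) ^ M ≤ (1 + T₀) ^ M := pow_le_pow_left₀ (by linarith) (by linarith) M
    have h3 : |b 0| * vol * (1 + t) ^ M ≤ |b 0| * vol * (1 + T₀) ^ M :=
      mul_le_mul_of_nonneg_left h2 (by positivity)
    have h4 : 0 ≤ C₂ * ((K.a0 / 2) ^ M)⁻¹ * 2 ^ M * vol := by positivity
    nlinarith [h3, h4]
  · obtain ⟨α, hα⟩ : ∃ α : ℝ, α = ⟪X - X', τ⟫_ℝ := ⟨_, rfl⟩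
    obtain ⟨β, hβd⟩ : ∃ β : ℝ, β = ⟪X - X', n⟫_ℝ := ⟨_, rfl⟩
    rw [← hβd] at hβ
    obtain ⟨sα, hs1, hs2⟩ : ∃ s : ℝ, |s| = 1 ∧ s * α = |α| := by
      rcases le_total 0 α with h1 | h1
      · exact ⟨1, by simp, by rw [one_mul, abs_of_nonneg h1]⟩
      · exact ⟨-1, by simp, by rw [abs_of_nonpos h1]; ring⟩
    have hss : sα * sα = 1 := by rw [← abs_mul_abs_self, hs1, one_mul]
    have hsa : |α| * sα = α := by
      rw [← hs2]
      calc sα * α * sα = (sα * sα) * α := by ring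
        _ = α := by rw [hss, one_mul]
    have hdec : X - X' = |α| • (sα • τ) + β • n := by
      rw [smul_smul, hsa, hα, hβd]
      exact coh_decomp hf _
    have hen : ‖sα • τ‖ = 1 := by rw [norm_smul, Real.norm_eq_abs, hs1, hf.τ1, one_mul]
    have hβn : ‖β • n‖ = |β| := by rw [norm_smul, Real.norm_eq_abs, hf.n1, mul_one]
    have hlowD : ∀ z, K.a0 * |α| - K.A 0 * |β| ≤ pkSg h * ⟪pkD ζ V ρ c c X X' z, sα • τ⟫_ℝ := by
      intro z
      have := coh_D_lower h V X X' ρ c z (sα • τ) (β • n) |α| hen (abs_nonneg α) hdec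
      rwa [hβn] at this
    have hA0 : 0 ≤ K.A 0 := (norm_nonneg _).trans (pk_dpZ_norm_le h 0)
    have hC₁0 : 0 ≤ C₁ := le_trans (by positivity) hβ
    have htle : t ≤ lam * ρ * |α| + lam * ρ * |β| := by
      rw [ht, ← mul_add, hα, hβd]
      exact mul_le_mul_of_nonneg_left (coh_norm_le hf _) hL.le
    obtain ⟨m, hmdef⟩ : ∃ m : ℝ, m = K.a0 / 2 * t := ⟨_, rfl⟩
    have ht1' : 1 < t := lt_of_le_of_lt hT₀1 ht1
    have hm : 0 < m := by rw [hmdef]; positivity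
    have hmle : m ≤ lam * ρ * (K.a0 * |α| - K.A 0 * |β|) := by
      have h1 : K.a0 * T₀ = K.a0 + 2 * (K.a0 + K.A 0) * C₁ := by
        rw [hT₀, abs_of_nonneg hA0, abs_of_nonneg hC₁0]
        field_simp
      have h2 : K.a0 * T₀ < K.a0 * t := mul_lt_mul_of_pos_left ht1 h0
      have h3 : K.a0 * t ≤ K.a0 * (lam * ρ * |α| + lam * ρ * |β|) := mul_le_mul_of_nonneg_left htle h0.le
      have h4 : (K.a0 + K.A 0) * (lam * ρ * |β|) ≤ (K.a0 + K.A 0) * C₁ :=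
        mul_le_mul_of_nonneg_left hβ (by positivity)
      rw [hmdef]
      nlinarith
    obtain ⟨e₁, he₁⟩ : ∃ e₁ : ℝ, e₁ = pkSg h * sα := ⟨_, rfl⟩
    have he₁n : ‖e₁‖ = 1 := by rw [he₁, Real.norm_eq_abs, abs_mul, pk_sg_abs, hs1, one_mul]
    have hΩ : IsOpen (Ioo (-(R + 1)) (R + 1)) := isOpen_Ioo
    have hφsm : ContDiff ℝ ∞ φ₁ := by
      rw [hφ₁]
      exact (pk_ph_smooth h lam V X X' ρ hc hc).comp (by fun_prop)
    have hfd : ∀ x, fderiv ℝ φ₁ x e₁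
        = (e₁ * (lam * ρ)) • (innerSL ℝ τ (pkD ζ V ρ c c X X' (y • n + π x))) := by
      intro x
      have hg : HasFDerivAt (fun x : ℝ => x • τ + y • n) π x := by
        have h1 := (π.hasFDerivAt (x := x)).add_const (y • n)
        simpa only [hπa] using h1
      have h1 := (pk_ph_hasFDerivAt h lam V X X' ρ hc hc (x • τ + y • n)).comp x hg
      have h2 : fderiv ℝ φ₁ x = ((lam * ρ) • innerSL ℝ (pkD ζ V ρ c c X X' (x • τ + y • n))).comp π := by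
        rw [hφ₁]
        exact h1.fderiv
      rw [h2, hπa, add_comm (y • n)]
      simp only [ContinuousLinearMap.comp_apply, hπa, _root_.smul_apply, innerSL_apply_apply,
        inner_smul_right, smul_eq_mul, real_inner_comm τ]
      ring
    have hlow : ∀ x ∈ Ioo (-(R + 1)) (R + 1), m ≤ fderiv ℝ φ₁ x e₁ := by
      intro x _
      rw [hfd, innerSL_apply_apply, smul_eq_mul]
      have h1 := mul_le_mul_of_nonneg_left (hlowD (y • n + π x)) hL.le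
      rw [inner_smul_right, real_inner_comm] at h1
      refine hmle.trans (h1.trans (le_of_eq ?_))
      rw [he₁]
      ring
    have hcb : Cb (fun j => A' j / (K.a0 / 2) * m) (Ioo (-(R + 1)) (R + 1)) (fun x => fderiv ℝ φ₁ x e₁) := by
      have habs : |c| ≤ cmax := by rw [abs_of_nonneg hc]; exact hcm
      have h1 := hA' Φ ζ h V X X' ρ c c hρ hρ1 habs habs
      have h1a := h1.comp_add (y • n)
      have hop : IsOpen {x : E2 | y • n + x ∈ ball (0 : E2) (2 * R + 2)} :=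
        isOpen_ball.preimage (continuous_const.add continuous_id)
      have hmaps : MapsTo π (Ioo (-(R + 1)) (R + 1)) {x : E2 | y • n + x ∈ ball (0 : E2) (2 * R + 2)} := by
        intro x hx
        show y • n + π x ∈ ball (0 : E2) (2 * R + 2)
        rw [mem_ball_zero_iff, hπa]
        have h2 : |x| < R + 1 := abs_lt.2 hx
        calc ‖y • n + x • τ‖ ≤ ‖y • n‖ + ‖x • τ‖ := norm_add_le _ _
          _ = |y| + |x| := by rw [norm_smul, norm_smul, hf.n1, hf.τ1, mul_one, mul_one, Real.norm_eq_abs, Real.norm_eq_abs]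
          _ < 2 * R + 2 := by linarith
      have h1b := h1a.comp_clm hop hΩ π hmaps
      have h2 := ((h1b.clm_post hΩ (innerSL ℝ τ)).const_smul hΩ (e₁ * (lam * ρ)))
      refine (h2.congr hΩ fun x _ => hfd x).mono subset_rfl fun j => ?_
      show |e₁ * (lam * ρ)| * (‖innerSL ℝ τ‖ * (_ * ‖π‖ ^ j)) ≤ _
      rw [innerSL_apply_norm, hf.τ1, one_mul, hπn, one_pow, mul_one, abs_mul, ← Real.norm_eq_abs e₁, he₁n, one_mul,
        abs_of_pos hL]
      have e2 : A' j / (K.a0 / 2) * m = lam * ρ * (A' j * ‖X - X'‖) := by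
        rw [hmdef, ht]
        field_simp
      rw [e2]
      refine mul_le_mul_of_nonneg_left ?_ hL.le
      simp only [sub_self, zero_smul, sub_zero, abs_zero, zero_mul, add_zero]
      split_ifs with hj
      · rw [hj]
      · have h5 : A' j * ρ ≤ A' j := by
          have := mul_le_mul_of_nonneg_left hρ1 (hA'0 j)
          rwa [mul_one] at this
        exact mul_le_mul_of_nonneg_right h5 (norm_nonneg _)
    have h6 := hC₂ (Ioo (-(R + 1)) (R + 1)) (Icc (-R) R) a₁ φ₁ e₁ m hΩ isCompact_Icc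
      (Icc_subset_Ioo (by linarith) (by linarith)) he₁n.le hm hsm hsupp hbd hφsm.contDiffOn hlow hcb
    rw [← hvol] at h6
    refine h6.trans ?_
    rw [← div_eq_mul_inv _ ((1 + t) ^ M), le_div_iff₀ hpow, hmdef, mul_pow, mul_inv]
    have h7 : (1 + t) ^ M ≤ 2 ^ M * t ^ M := by
      rw [← mul_pow]
      exact pow_le_pow_left₀ (by linarith) (by linarith) M
    have htM : 0 < t ^ M := by positivity
    have h8 : (t ^ M)⁻¹ * (1 + t) ^ M ≤ 2 ^ M := by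
      rw [inv_mul_le_iff₀ htM]
      linarith
    have h9 : C₂ * ((K.a0 / 2) ^ M)⁻¹ * vol * ((t ^ M)⁻¹ * (1 + t) ^ M) ≤ C₂ * ((K.a0 / 2) ^ M)⁻¹ * vol * 2 ^ M :=
      mul_le_mul_of_nonneg_left h8 (by positivity)
    have h10 : 0 ≤ |b 0| * (1 + T₀) ^ M * vol := by positivity
    calc C₂ * (((K.a0 / 2) ^ M)⁻¹ * (t ^ M)⁻¹) * vol * (1 + t) ^ M
        = C₂ * ((K.a0 / 2) ^ M)⁻¹ * vol * ((t ^ M)⁻¹ * (1 + t) ^ M) := by ring
      _ ≤ C₂ * ((K.a0 / 2) ^ M)⁻¹ * vol * 2 ^ M := h9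
      _ ≤ _ := by linarith [h10]

/-! ### COH-C -/

/-- Gram entry over a strip, packet coordinates.
PLAN: `∫ z in strip, G z = ∫ z, indicator strip G z`, `coh_fubini` (integrable: continuous with compact support times an indicator), `⟨xτ + yn, n⟩ = y`, so the indicator is `1_{|y - y₀| ≤ w}`;
`norm_integral_le_of_norm_le` with the bound `C' 1_{Icc (y₀-w) (y₀+w)}`, `coh_inner`; the length is `2w`. -/
theorem coh_gram_z (K : OscBd) (h0 : 0 < K.a0) (cmax R C₁ : ℝ) (M : ℕ) (b : ℕ → ℝ) : ∃ C : ℝ, 0 ≤ C ∧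
    ∀ (Φ : ℝ → E2 → E2 → ℝ) (ζ : E2 → E2 → E2), IsPhase K Φ ζ → ∀ (lam ρ c : ℝ) (V X X' : E2) (a : E2 → ℂ), 0 < lam → 0 < ρ → ρ ≤ 1 →
      0 ≤ c → c ≤ cmax → PkAmp M R b a → ∀ (τ n : E2), CohFrame τ n → lam * ρ * |⟪X - X', n⟫_ℝ| ≤ C₁ → ∀ y w : ℝ, 0 ≤ w →
      ‖∫ z in cohStrip n y w, a z * Complex.exp (Complex.I * ((pkPh lam Φ V ρ c c X X' z : ℝ) : ℂ))‖
        ≤ C * w * ((1 + lam * ρ * ‖X - X'‖) ^ M)⁻¹ := by
  obtain ⟨C, hC0, hC⟩ := coh_inner K h0 cmax R C₁ M b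
  refine ⟨2 * C, by positivity, ?_⟩
  intro Φ ζ h lam ρ c V X X' a hlam hρ hρ1 hc hcm ha τ n hfr hn y w hw
  obtain ⟨G, hG⟩ : ∃ G : E2 → ℂ, G = fun z => a z * Complex.exp (Complex.I * ((pkPh lam Φ V ρ c c X X' z : ℝ) : ℂ)) :=
    ⟨_, rfl⟩
  obtain ⟨B, hB⟩ : ∃ B : ℝ, B = C * ((1 + lam * ρ * ‖X - X'‖) ^ M)⁻¹ := ⟨_, rfl⟩
  have hin : ∀ y' : ℝ, ‖∫ x : ℝ, G (x • τ + y' • n)‖ ≤ B := by
    intro y'
    rw [hG, hB]
    exact hC Φ ζ h lam ρ c V X X' a hlam hρ hρ1 hc hcm ha τ n hfr hn y'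
  have hGc : Continuous G := by
    have h1 : Continuous a := ha.smooth.continuous
    have h2 : Continuous (pkPh lam Φ V ρ c c X X') := (pk_ph_smooth h lam V X X' ρ hc hc).continuous
    rw [hG]
    fun_prop
  have hGs : HasCompactSupport G := by
    refine HasCompactSupport.intro (isCompact_closedBall (0 : E2) R) fun z hz => ?_
    have h0 : a z = 0 := by
      by_contra hne
      exact hz (by simpa using ha.supp z hne)
    rw [hG]
    show a z * _ = 0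
    rw [h0, zero_mul]
  have hGi : Integrable G := hGc.integrable_of_hasCompactSupport hGs
  have hSm := coh_strip_measurable n y w
  have e1 : ∫ z in cohStrip n y w, G z = ∫ y' : ℝ, ∫ x : ℝ, (cohStrip n y w).indicator G (x • τ + y' • n) := by
    rw [← integral_indicator hSm]
    exact coh_fubini hfr _ (hGi.indicator hSm)
  have hnn : ⟪n, n⟫_ℝ = 1 := by rw [real_inner_self_eq_norm_sq, hfr.n1]; norm_num
  have e2 : ∀ y' : ℝ, ∫ x : ℝ, (cohStrip n y w).indicator G (x • τ + y' • n)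
      = (Icc (y - w) (y + w)).indicator (fun y' => ∫ x : ℝ, G (x • τ + y' • n)) y' := by
    intro y'
    have hmem : ∀ x : ℝ, (x • τ + y' • n ∈ cohStrip n y w) ↔ y' ∈ Icc (y - w) (y + w) := by
      intro x
      show |⟪x • τ + y' • n, n⟫_ℝ - y| ≤ w ↔ _
      rw [inner_add_left, inner_smul_left, inner_smul_left, hfr.orth, hnn, mem_Icc, abs_le]
      simp only [conj_trivial, mul_zero, mul_one, zero_add]
      constructor
      · rintro ⟨h1, h2⟩; constructor <;> linarith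
      · rintro ⟨h1, h2⟩; constructor <;> linarith
    by_cases hy : y' ∈ Icc (y - w) (y + w)
    · rw [indicator_of_mem hy]
      refine integral_congr_ae (Filter.Eventually.of_forall fun x => ?_)
      exact indicator_of_mem ((hmem x).2 hy) G
    · rw [indicator_of_notMem hy]
      refine integral_eq_zero_of_ae (Filter.Eventually.of_forall fun x => ?_)
      exact indicator_of_notMem (fun hx => hy ((hmem x).1 hx)) G
  have e3 : ∫ z in cohStrip n y w, G z = ∫ y' in Icc (y - w) (y + w), ∫ x : ℝ, G (x • τ + y' • n) := by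
    rw [e1, ← integral_indicator measurableSet_Icc]
    exact integral_congr_ae (Filter.Eventually.of_forall e2)
  have hvol : (volume : Measure ℝ).real (Icc (y - w) (y + w)) = 2 * w := by
    rw [Measure.real, Real.volume_Icc, ENNReal.toReal_ofReal (by linarith)]
    ring
  have e4 := norm_setIntegral_le_of_norm_le_const (μ := (volume : Measure ℝ)) (s := Icc (y - w) (y + w))
    (f := fun y' => ∫ x : ℝ, G (x • τ + y' • n)) (C := B) isCompact_Icc.measure_lt_top (fun y' _ => hin y')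
  rw [hvol] at e4
  rw [← hG, e3]
  refine e4.trans (le_of_eq ?_)
  rw [hB]
  ring

/-- the strip in packet coordinates -/
theorem coh_strip_scale (n V : E2) {ρ : ℝ} (hρ : 0 < ρ) (y w : ℝ) (z : E2) :
    V + ρ • z ∈ cohStrip n y w ↔ z ∈ cohStrip n ((y - ⟪V, n⟫_ℝ) / ρ) (w / ρ) := by
  show |⟪V + ρ • z, n⟫_ℝ - y| ≤ w ↔ |⟪z, n⟫_ℝ - (y - ⟪V, n⟫_ℝ) / ρ| ≤ w / ρ
  rw [inner_add_left, inner_smul_left, conj_trivial]
  have e : ⟪z, n⟫_ℝ - (y - ⟪V, n⟫_ℝ) / ρ = (⟪V, n⟫_ℝ + ρ * ⟪z, n⟫_ℝ - y) / ρ := by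
    field_simp
    ring
  rw [e, abs_div, abs_of_pos hρ, div_le_div_iff_of_pos_right hρ]

/-- the Gram entry over a strip in packet coordinates (cf. `pk_gram_eq`). -/
theorem coh_gram_eq (lam : ℝ) {ρ : ℝ} (hρ : 0 < ρ) (c c' : ℝ) (V V' X X' : E2) (ψ ψ' : E2 → ℂ) (n : E2) (y w : ℝ) :
    ∫ v in cohStrip n y w, pkt lam Φ c ρ V X ψ v * conj (pkt lam Φ c' ρ V' X' ψ' v)
      = ∫ z in cohStrip n ((y - ⟪V, n⟫_ℝ) / ρ) (w / ρ),
          (ψ z * conj (ψ' (ρ⁻¹ • (V - V') + z))) * Complex.exp (Complex.I * ((pkPh lam Φ V ρ c c' X X' z : ℝ) : ℂ)) := by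
  rw [← integral_indicator (coh_strip_measurable n y w), ← integral_indicator (coh_strip_measurable n _ _),
    pk_integral_scale _ V hρ, ← integral_const_mul]
  refine integral_congr_ae (Filter.Eventually.of_forall fun z => ?_)
  show ((ρ ^ 2 : ℝ) : ℂ) * (cohStrip n y w).indicator
      (fun v => pkt lam Φ c ρ V X ψ v * conj (pkt lam Φ c' ρ V' X' ψ' v)) (V + ρ • z) = _
  by_cases hz : z ∈ cohStrip n ((y - ⟪V, n⟫_ℝ) / ρ) (w / ρ)
  · rw [indicator_of_mem hz, indicator_of_mem ((coh_strip_scale n V hρ y w z).2 hz)]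
    show ((ρ ^ 2 : ℝ) : ℂ) * (pkt lam Φ c ρ V X ψ (V + ρ • z) * conj (pkt lam Φ c' ρ V' X' ψ' (V + ρ • z)))
      = (ψ z * conj (ψ' (ρ⁻¹ • (V - V') + z))) * Complex.exp (Complex.I * ((pkPh lam Φ V ρ c c' X X' z : ℝ) : ℂ))
    rw [pk_pkt_scale lam hρ, pk_pkt_scale lam hρ, sub_self, smul_zero, zero_add, map_mul, map_mul, Complex.conj_ofReal,
      ← Complex.exp_conj, map_mul, Complex.conj_I, Complex.conj_ofReal]
    have e : Complex.exp (Complex.I * ((pkPh lam Φ V ρ c c' X X' z : ℝ) : ℂ))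
        = Complex.exp (Complex.I * ((lam * Φ c X (V + ρ • z) : ℝ) : ℂ))
          * Complex.exp (-Complex.I * ((lam * Φ c' X' (V + ρ • z) : ℝ) : ℂ)) := by
      rw [← Complex.exp_add]
      congr 1
      show Complex.I * ((lam * (Φ c X (V + ρ • z) - Φ c' X' (V + ρ • z)) : ℝ) : ℂ) = _
      push_cast
      ring
    rw [e]
    have hρ' : (ρ : ℂ) ≠ 0 := Complex.ofReal_ne_zero.2 hρ.ne'
    push_cast
    field_simp
  · rw [indicator_of_notMem hz, indicator_of_notMem (fun h => hz ((coh_strip_scale n V hρ y w z).1 h)), mul_zero]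

/-- Gram entry of two packets over a strip.
PLAN: as `pk_gram_eq` / `pk_gram` : `v = V + ρ z` maps `cohStrip n y w` to `cohStrip n ((y - ⟨V,n⟩)/ρ) (w/ρ)`  (apply `pk_integral_scale` to the indicator function). -/
theorem coh_gram (K : OscBd) (h0 : 0 < K.a0) (cmax R C₁ : ℝ) (M : ℕ) (b : ℕ → ℝ) : ∃ C : ℝ, 0 ≤ C ∧
    ∀ (Φ : ℝ → E2 → E2 → ℝ) (ζ : E2 → E2 → E2), IsPhase K Φ ζ → ∀ (lam ρ c : ℝ) (V V' X X' : E2) (ψ ψ' : E2 → ℂ), 0 < lam → 0 < ρ → ρ ≤ 1 →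
      0 ≤ c → c ≤ cmax → PkAmp M R b ψ → PkAmp M R b ψ' → ∀ (τ n : E2), CohFrame τ n → lam * ρ * |⟪X - X', n⟫_ℝ| ≤ C₁ → ∀ y w : ℝ, 0 ≤ w →
      ‖∫ v in cohStrip n y w, pkt lam Φ c ρ V X ψ v * conj (pkt lam Φ c ρ V' X' ψ' v)‖
        ≤ C * (w / ρ) * ((1 + lam * ρ * ‖X - X'‖) ^ M)⁻¹ := by
  obtain ⟨C, hC0, hC⟩ := coh_gram_z K h0 cmax R C₁ M (pkLeib b b)
  refine ⟨C, hC0, fun Φ ζ h lam ρ c V V' X X' ψ ψ' hlam hρ hρ1 hc hcm hψ hψ' τ n hfr hn y w hw => ?_⟩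
  have h1 := pk_amp_conj (pk_amp_shift hψ' (ρ⁻¹ • (V - V')))
  have h2 := hC Φ ζ h lam ρ c V X X' _ hlam hρ hρ1 hc hcm (pk_amp_mul_bdd hψ h1.smooth h1.bound) τ n hfr hn
    ((y - ⟪V, n⟫_ℝ) / ρ) (w / ρ) (div_nonneg hw hρ.le)
  refine le_trans (le_of_eq ?_) h2
  congr 1
  exact coh_gram_eq lam hρ c c V V' X X' ψ ψ' n y w

/-- disjoint velocity supports (the integrand vanishes identically, cf. `pk_gram_far`). -/
theorem coh_gram_far {M : ℕ} {R : ℝ} {b : ℕ → ℝ} {ψ ψ' : E2 → ℂ} (hψ : PkAmp M R b ψ) (hψ' : PkAmp M R b ψ') (lam : ℝ) {ρ : ℝ} (hρ : 0 < ρ)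
    (c c' : ℝ) (V V' X X' : E2) (hV : 2 * R * ρ < ‖V - V'‖) (S : Set E2) :
    ∫ v in S, pkt lam Φ c ρ V X ψ v * conj (pkt lam Φ c' ρ V' X' ψ' v) = 0 := by
  refine integral_eq_zero_of_ae (Filter.Eventually.of_forall fun v => ?_)
  show pkt lam Φ c ρ V X ψ v * conj (pkt lam Φ c' ρ V' X' ψ' v) = 0
  by_contra h0
  have h1 := pk_pkt_supp hψ lam hρ c V X v (left_ne_zero_of_mul h0)
  have h2 := pk_pkt_supp hψ' lam hρ c' V' X' v fun h => right_ne_zero_of_mul h0 (by rw [h, map_zero])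
  have h3 : ‖V - V'‖ ≤ ‖v - V‖ + ‖v - V'‖ := by
    have := norm_sub_le (v - V') (v - V)
    rw [sub_sub_sub_cancel_left] at this
    linarith
  linarith

/-! ### COH-D -/

/-- row sums of the strip Gram matrix.  PLAN: as `pk_row_sum` with `r = 0`, `M = 3`: drop the velocity-disjoint sites (`coh_gram_far`), `pk_mult2_slice`, `coh_gram`, `pk_count`. -/
theorem coh_row (K : OscBd) (h0 : 0 < K.a0) (cmax R C₁ : ℝ) (b : ℕ → ℝ) : ∃ C : ℝ, 0 ≤ C ∧
    ∀ (Φ : ℝ → E2 → E2 → ℝ) (ζ : E2 → E2 → E2), IsPhase K Φ ζ → ∀ (lam ρ c : ℝ), 0 < lam → 0 < ρ → ρ ≤ 1 → 0 ≤ c → c ≤ cmax →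
      ∀ (ι : Type) (s : Finset ι) (V X : ι → E2) (ψ : ι → E2 → ℂ) (m : ℕ), PkMult2 s V X ρ (lam * ρ)⁻¹ m → (∀ i ∈ s, PkAmp 3 R b (ψ i)) →
      ∀ (τ n x₀ : E2), CohFrame τ n → (∀ i ∈ s, lam * ρ * |⟪X i - x₀, n⟫_ℝ| ≤ C₁) → ∀ y w : ℝ, 0 ≤ w → ∀ i ∈ s,
        ∑ j ∈ s, ‖∫ v in cohStrip n y w, pkt lam Φ c ρ (V i) (X i) (ψ i) v * conj (pkt lam Φ c ρ (V j) (X j) (ψ j) v)‖ ≤ C * m * (w / ρ) := by
  classical
  obtain ⟨Cg, hCg0, hCg⟩ := coh_gram K h0 cmax R (2 * C₁) 3 b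
  obtain ⟨Cc, hCc0, hCc⟩ := pk_count 3 le_rfl
  obtain ⟨Cs, hCs⟩ := pk_mult2_slice
  refine ⟨Cg * (Cc * (Cs * (⌈|2 * R|⌉₊ + 1) ^ 2 : ℕ)), by positivity, ?_⟩
  intro Φ ζ h lam ρ c hlam hρ hρ1 hc hcm ι s V X ψ m hm hψ τ n x₀ hfr hpos y w hw i hi
  have hσ : 0 < (lam * ρ)⁻¹ := by positivity
  have hwρ : 0 ≤ w / ρ := div_nonneg hw hρ.le
  obtain ⟨s', hs'⟩ : ∃ s' : Finset ι, s' = s.filter fun j => ‖V i - V j‖ ≤ 2 * R * ρ := ⟨_, rfl⟩
  have hsub : s' ⊆ s := by rw [hs']; exact Finset.filter_subset _ _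
  have hmem : ∀ j ∈ s', ‖V i - V j‖ ≤ 2 * R * ρ := fun j hj => by
    rw [hs'] at hj
    exact (Finset.mem_filter.1 hj).2
  have e1 : ∑ j ∈ s, ‖∫ v in cohStrip n y w, pkt lam Φ c ρ (V i) (X i) (ψ i) v * conj (pkt lam Φ c ρ (V j) (X j) (ψ j) v)‖ =
      ∑ j ∈ s', ‖∫ v in cohStrip n y w, pkt lam Φ c ρ (V i) (X i) (ψ i) v * conj (pkt lam Φ c ρ (V j) (X j) (ψ j) v)‖ := by
    refine (Finset.sum_subset hsub fun j hj hj' => ?_).symm
    have hfar : 2 * R * ρ < ‖V i - V j‖ := by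
      by_contra hcon
      exact hj' (by rw [hs']; exact Finset.mem_filter.2 ⟨hj, not_lt.1 hcon⟩)
    rw [coh_gram_far (hψ i hi) (hψ j hj) lam hρ c c (V i) (V j) (X i) (X j) hfar, norm_zero]
  have hmult : PkMult s' X (lam * ρ)⁻¹ (Cs * m * (⌈|2 * R|⌉₊ + 1) ^ 2) := by
    refine hCs ι s' V X ρ _ m hρ (hm.mono hsub) (V i) |2 * R| (abs_nonneg _) fun j hj => ?_
    rw [norm_sub_rev]
    exact (hmem j hj).trans (mul_le_mul_of_nonneg_right (le_abs_self _) hρ.le)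
  have h2 := hCc ι s' X _ _ hσ hmult (X i) 0 le_rfl (fun j _ => by rw [zero_mul]; exact norm_nonneg _)
  have hpair : ∀ j ∈ s, lam * ρ * |⟪X i - X j, n⟫_ℝ| ≤ 2 * C₁ := by
    intro j hj
    have a1 := hpos i hi
    have a2 := hpos j hj
    have e : ⟪X i - X j, n⟫_ℝ = ⟪X i - x₀, n⟫_ℝ - ⟪X j - x₀, n⟫_ℝ := by
      rw [← inner_sub_left, sub_sub_sub_cancel_right]
    have a3 : |⟪X i - X j, n⟫_ℝ| ≤ |⟪X i - x₀, n⟫_ℝ| + |⟪X j - x₀, n⟫_ℝ| := by
      rw [e]; exact abs_sub _ _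
    have a4 := mul_le_mul_of_nonneg_left a3 (mul_pos hlam hρ).le
    linarith
  rw [e1]
  calc ∑ j ∈ s', ‖∫ v in cohStrip n y w, pkt lam Φ c ρ (V i) (X i) (ψ i) v * conj (pkt lam Φ c ρ (V j) (X j) (ψ j) v)‖
      ≤ ∑ j ∈ s', Cg * (w / ρ) * ((1 + ‖X j - X i‖ / (lam * ρ)⁻¹) ^ 3)⁻¹ := by
        refine Finset.sum_le_sum fun j hj => ?_
        have := hCg Φ ζ h lam ρ c (V i) (V j) (X i) (X j) (ψ i) (ψ j) hlam hρ hρ1 hc hcm (hψ i hi) (hψ j (hsub hj))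
          τ n hfr (hpair j (hsub hj)) y w hw
        rw [div_inv_eq_mul, norm_sub_rev (X j) (X i), mul_comm ‖X i - X j‖]
        exact this
    _ = Cg * (w / ρ) * ∑ j ∈ s', ((1 + ‖X j - X i‖ / (lam * ρ)⁻¹) ^ 3)⁻¹ := by rw [Finset.mul_sum]
    _ ≤ Cg * (w / ρ) * (Cc * ((Cs * m * (⌈|2 * R|⌉₊ + 1) ^ 2 : ℕ) : ℝ) * ((1 + 0) ^ (3 - 3))⁻¹) :=
        mul_le_mul_of_nonneg_left h2 (by positivity)
    _ = _ := by
        push_cast
        norm_num
        ring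

/-- **THE STRIP BESSEL INEQUALITY**.
PLAN: `g i = indicator (cohStrip n y w) (pkt …)` is in `L²` (`pk_pkt_memLp`, `MemLp.indicator`), `∫ g i conj (g j) = ∫ in strip, …` (`integral_indicator`), `∫ f · pkt_i = ∫ f · g i` since `f = 0` off the strip;
`pk_bessel_fun_anal` with `coh_row`. -/
theorem coh_strip (K : OscBd) (h0 : 0 < K.a0) (cmax R C₁ : ℝ) (b : ℕ → ℝ) : ∃ C : ℝ, 0 ≤ C ∧
    ∀ (Φ : ℝ → E2 → E2 → ℝ) (ζ : E2 → E2 → E2), IsPhase K Φ ζ → ∀ (lam ρ c : ℝ), 0 < lam → 0 < ρ → ρ ≤ 1 → 0 ≤ c → c ≤ cmax →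
      ∀ (ι : Type) (s : Finset ι) (V X : ι → E2) (ψ : ι → E2 → ℂ) (m : ℕ), PkMult2 s V X ρ (lam * ρ)⁻¹ m → (∀ i ∈ s, PkAmp 3 R b (ψ i)) →
      ∀ (τ n x₀ : E2), CohFrame τ n → (∀ i ∈ s, lam * ρ * |⟪X i - x₀, n⟫_ℝ| ≤ C₁) → ∀ y w : ℝ, 0 ≤ w →
      ∀ f : E2 → ℂ, MemLp f 2 volume → (∀ v, v ∉ cohStrip n y w → f v = 0) →
        ∑ i ∈ s, pkMass lam Φ c ρ (V i) (X i) (ψ i) f ≤ C * m * (w / ρ) * ∫ v, ‖f v‖ ^ 2 := by
  obtain ⟨C, hC0, hC⟩ := coh_row K h0 cmax R C₁ b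
  refine ⟨C, hC0, fun Φ ζ h lam ρ c hlam hρ hρ1 hc hcm ι s V X ψ m hm hψ τ n x₀ hfr hpos y w hw f hf hoff => ?_⟩
  have hSm := coh_strip_measurable n y w
  have hrow := hC Φ ζ h lam ρ c hlam hρ hρ1 hc hcm ι s V X ψ m hm hψ τ n x₀ hfr hpos y w hw
  have h1 := pk_bessel_fun_anal volume s (fun i => (cohStrip n y w).indicator (pkt lam Φ c ρ (V i) (X i) (ψ i)))
    (fun i hi => (pk_pkt_memLp h (hψ i hi) lam hρ hc (V i) (X i)).indicator hSm) (C := C * m * (w / ρ))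
    (fun i hi => by
      refine le_trans (le_of_eq (Finset.sum_congr rfl fun j _ => ?_)) (hrow i hi)
      rw [← integral_indicator hSm]
      congr 1
      refine integral_congr_ae (Filter.Eventually.of_forall fun v => ?_)
      by_cases hv : v ∈ cohStrip n y w
      · simp only [indicator_of_mem hv]
      · simp only [indicator_of_notMem hv, map_zero, mul_zero])
    (by have := div_nonneg hw hρ.le; positivity) f hf
  refine le_trans (le_of_eq (Finset.sum_congr rfl fun i _ => ?_)) h1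
  show ‖∫ v, f v * pkt lam Φ c ρ (V i) (X i) (ψ i) v‖ ^ 2 = _
  congr 2
  refine integral_congr_ae (Filter.Eventually.of_forall fun v => ?_)
  by_cases hv : v ∈ cohStrip n y w
  · simp only [indicator_of_mem hv]
  · simp only [indicator_of_notMem hv, mul_zero, hoff v hv, zero_mul]

end Claimed.Agent.R255
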